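import Vale.Agent.P043.Three.Layer.Tile
import Vale.Agent.P043.Gadget.Cycle

/-!
P043, dimension three, layers: the vertical tile of a clause of positive literals.

Literal `i` says that the column of block `e i` is invariant under `t i`. The digit pattern
`[u (e i) = 0]` determines which blocks are shifted, by inverting the cyclic target map.
-/

namespace Vale.Agent.P043.Three.Layer

open Finset Vale.Agent.P043.Gadget

variable {k : ℕ}

theorem tgt_injective : Function.Injective (Cycle.tgt : (Fin (k + 1) → Bool) → _) := by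
  intro s t h
  funext i
  induction i using Fin.cases with
  | zero =>
    have h0 := congrFun h (Fin.last k)
    simpa [Cycle.tgt] using h0
  | succ j =>
    have h0 := congrFun h j.castSucc
    simpa [Cycle.tgt] using h0

theorem tgt_bijective : Function.Bijective (Cycle.tgt : (Fin (k + 1) → Bool) → _) :=
  Finite.injective_iff_bijective.1 tgt_injective

/-- A cyclic chain of equalities closed by a negation is impossible. -/
theorem tgt_ne_self (t : Fin (k + 1) → Bool) (h : ∀ i, Cycle.tgt t i = t i) : False := by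
  have hall : ∀ i, t i = t 0 := by
    intro i
    induction i using Fin.induction with
    | zero => rfl
    | succ j ih =>
      have hj := h j.castSucc
      rw [Cycle.tgt, Fin.snoc_castSucc] at hj
      rw [hj, ih]
  have hl := h (Fin.last k)
  rw [Cycle.tgt, Fin.snoc_last, hall (Fin.last k)] at hl
  cases h0 : t 0 <;> simp [h0] at hl

/-- The shifts chosen by a digit pattern. -/
noncomputable def bits (p : Fin (k + 1) → Bool) : Fin (k + 1) → Bool :=
  (Equiv.ofBijective _ (tgt_bijective (k := k))).symm p

theorem tgt_bits (p : Fin (k + 1) → Bool) : Cycle.tgt (bits p) = p :=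
  (Equiv.ofBijective _ (tgt_bijective (k := k))).apply_symm_apply p

theorem bits_eq {p s : Fin (k + 1) → Bool} (h : Cycle.tgt s = p) : bits p = s :=
  tgt_injective ((tgt_bits p).trans h.symm)

variable {β : Type} {Γ : β → Type} [∀ b, AddCommGroup (Γ b)] [DecidableEq β]
  [∀ b, DecidableEq (Γ b)]

/-- The shift vector of a bit pattern. -/
def shiftVec (e : Fin (k + 1) → β) (t : ∀ i, Γ (e i)) (x : Fin (k + 1) → Bool) : ∀ b, Γ b :=
  ∑ i, Pi.single (e i) (if x i then t i else 0)

omit [∀ b, DecidableEq (Γ b)] in
theorem shiftVec_apply {e : Fin (k + 1) → β} (he : Function.Injective e) (t : ∀ i, Γ (e i))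
    (x : Fin (k + 1) → Bool) (i : Fin (k + 1)) :
    shiftVec e t x (e i) = if x i then t i else 0 := by
  rw [shiftVec, Finset.sum_apply, sum_eq_single i]
  · simp
  · intro j _ hj
    exact Pi.single_eq_of_ne (fun h => hj (he h).symm) _
  · simp

omit [∀ b, DecidableEq (Γ b)] in
theorem shiftVec_apply_ne {e : Fin (k + 1) → β} (t : ∀ i, Γ (e i))
    (x : Fin (k + 1) → Bool) {b : β} (hb : ∀ i, e i ≠ b) : shiftVec e t x b = 0 := by
  rw [shiftVec, Finset.sum_apply]
  exact sum_eq_zero fun i _ => Pi.single_eq_of_ne (Ne.symm (hb i)) _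

/-- The points of a clause tile. -/
noncomputable def clauseMap (e : Fin (k + 1) → β) (t : ∀ i, Γ (e i)) (u : ∀ b, Γ b) :
    (ℤ × ℤ) × ∀ b, Γ b :=
  (0, u + shiftVec e t (bits fun i => decide (u (e i) = 0)))

theorem clauseMap_injOn [Fintype β] {e : Fin (k + 1) → β} (he : Function.Injective e)
    {t : ∀ i, Γ (e i)} {U : ∀ b, Finset (Γ b)}
    (ht : ∀ i, ∀ u ∈ U (e i), ∀ u' ∈ U (e i), u - u' ≠ t i) :
    Set.InjOn (clauseMap e t) ↑(prodU U) := by
  intro u hu v hv h
  rw [mem_coe, mem_prodU] at hu hv
  have h2 := congrArg Prod.snd h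
  simp only [clauseMap] at h2
  funext b
  have hb := congrFun h2 b
  simp only [Pi.add_apply] at hb
  by_cases hex : ∃ i, e i = b
  · obtain ⟨i, rfl⟩ := hex
    rw [shiftVec_apply he, shiftVec_apply he] at hb
    split_ifs at hb with h1 h2
    · exact add_right_cancel hb
    · exact absurd (by rw [add_zero] at hb; rw [← hb]; abel) (ht i _ (hv _) _ (hu _))
    · exact absurd (by rw [add_zero] at hb; rw [hb]; abel) (ht i _ (hu _) _ (hv _))
    · simpa using hb
  · simpa [shiftVec_apply_ne t _ (not_exists.1 hex)] using hb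

/-- The tile of a clause. -/
noncomputable def clauseTile [Fintype β] (U : ∀ b, Finset (Γ b)) (e : Fin (k + 1) → β)
    (t : ∀ i, Γ (e i)) : Finset ((ℤ × ℤ) × ∀ b, Γ b) := by
  classical exact (prodU U).image (clauseMap e t)

theorem card_clauseTile [Fintype β] {e : Fin (k + 1) → β} (he : Function.Injective e)
    {t : ∀ i, Γ (e i)} {U : ∀ b, Finset (Γ b)}
    (ht : ∀ i, ∀ u ∈ U (e i), ∀ u' ∈ U (e i), u - u' ≠ t i) :
    (clauseTile U e t).card = (prodU U).card := by
  classical
  rw [clauseTile, card_image_of_injOn (clauseMap_injOn he ht)]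

/-- With product columns, the clause tile tiles iff at every site some literal holds. -/
theorem isTiling_clauseTile [Fintype β] [∀ b, Fintype (Γ b)] {e : Fin (k + 1) → β}
    (he : Function.Injective e) {t : ∀ i, Γ (e i)} {U : ∀ b, Finset (Γ b)}
    (h0 : ∀ b, (0 : Γ b) ∈ U b) (ht : ∀ i, ∀ u ∈ U (e i), ∀ u' ∈ U (e i), u - u' ≠ t i)
    {a : ∀ b, ℤ × ℤ → Set (Γ b)} (ha : ∀ b, Cols (U b) (a b)) :
    IsTiling (clauseTile U e t) (prodSet a) ↔ ∀ X, ∃ i, Inv (a (e i) X) (t i) := by
  classical
  rw [clauseTile, isTiling_image_iff _ _ (clauseMap_injOn he ht)]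
  choose dig hdig hdigu using fun (b : β) (X : ℤ × ℤ) (z : Γ b) => ha b X z
  -- the digit seen by literal `i` when its shift is `s`
  let seen : ℤ × ℤ → (∀ b, Γ b) → Fin (k + 1) → Bool → Bool := fun X z i s =>
    decide (dig (e i) X (z (e i) - if s then t i else 0) = 0)
  let digits : ℤ × ℤ → (∀ b, Γ b) → (Fin (k + 1) → Bool) → ∀ b, Γ b := fun X z x b =>
    dig b X (z b - shiftVec e t x b)
  have key : ∀ X z u, (u ∈ prodU U ∧ (X, z) - clauseMap e t u ∈ prodSet a) ↔
      ∃ x, (∀ i, seen X z i (x i) = Cycle.tgt x i) ∧ u = digits X z x := by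
    intro X z u
    simp only [mem_prodU, clauseMap, prodSet, Set.mem_ofPred_eq, Prod.fst_sub, Prod.snd_sub,
      sub_zero, Pi.sub_apply, Pi.add_apply]
    constructor
    · rintro ⟨hu, hA⟩
      set x := bits fun i => decide (u (e i) = 0) with hx
      have hud : u = digits X z x := funext fun b => hdigu b _ _ _
        ⟨hu b, by
          have := hA b
          rwa [add_comm, ← sub_sub] at this⟩
      refine ⟨x, fun i => ?_, hud⟩
      rw [hx, tgt_bits, ← hx]
      simp only [seen]
      rw [← shiftVec_apply he t x i]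
      conv_rhs => rw [hud]
    · rintro ⟨x, hx, rfl⟩
      have hb : bits (fun i => decide (digits X z x (e i) = 0)) = x := by
        refine bits_eq (funext fun i => ?_)
        rw [← hx i]
        simp only [seen, digits, shiftVec_apply he]
      refine ⟨fun b => (hdig b _ _).1, fun b => ?_⟩
      rw [hb, add_comm, ← sub_sub]
      exact (hdig b _ _).2
  constructor
  · intro h X
    by_contra hne
    push Not at hne
    have hs : ∀ i, ∃ s, s ∈ a (e i) X ∧ s + t i ∉ a (e i) X := by
      intro i
      by_contra hno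
      push Not at hno
      refine hne i fun s => ⟨fun hs => ?_, hno s⟩
      have himg : (· + t i) '' a (e i) X = a (e i) X :=
        Set.eq_of_subset_of_ncard_le (Set.image_subset_iff.2 hno)
          (by rw [Set.ncard_image_of_injective _ (add_left_injective (t i))]) (Set.toFinite _)
      rw [← himg] at hs
      obtain ⟨s', hs', he'⟩ := hs
      exact add_right_cancel he' ▸ hs'
    choose s hs hs' using hs
    let z : ∀ b, Γ b := ∑ i, Pi.single (e i) (s i + t i)
    have hz : ∀ i, z (e i) = s i + t i := fun i => by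
      simp only [z, Finset.sum_apply]
      rw [sum_eq_single i]
      · simp
      · exact fun j _ hj => Pi.single_eq_of_ne (fun h => hj (he h).symm) _
      · simp
    obtain ⟨u, hu, -⟩ := h (X, z)
    obtain ⟨x, hx, -⟩ := (key X z u).1 hu
    refine tgt_ne_self x fun i => ?_
    rw [← hx i]
    simp only [seen, hz]
    cases x i
    · simp only [Bool.false_eq_true, if_false, sub_zero, decide_eq_false_iff_not]
      intro hd
      have h2 := (hdig (e i) X (s i + t i)).2
      rw [hd, sub_zero] at h2
      exact hs' i h2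
    · simp only [if_true, add_sub_cancel_right, decide_eq_true_eq]
      exact (hdigu (e i) X (s i) 0 ⟨h0 _, by simpa using hs i⟩).symm
  · rintro h ⟨X, z⟩
    obtain ⟨i₀, hi₀⟩ := h X
    have hconst : ∀ s, seen X z i₀ s = seen X z i₀ false := by
      rintro (_ | _)
      · rfl
      · have hd := hdig (e i₀) X (z (e i₀) - t i₀)
        have : dig (e i₀) X (z (e i₀) - t i₀) = dig (e i₀) X (z (e i₀)) :=
          hdigu (e i₀) X _ _ ⟨hd.1, by
            have := (hi₀ _).2 hd.2
            convert this using 1
            abel⟩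
        simp [seen, this]
    obtain ⟨x, hx, hxu⟩ := Cycle.existsUnique_chain (seen X z) hconst
    refine ⟨digits X z x, (key X z _).2 ⟨x, hx, rfl⟩, fun u hu => ?_⟩
    obtain ⟨x', hx', rfl⟩ := (key X z u).1 hu
    rw [hxu x' hx']

end Vale.Agent.P043.Three.Layer
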