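import Vale.Agent.P043.Three.Layer.Tile

/-!
P043, dimension three, layers: a local equation of one or two blocks times the other digit sets.
-/

namespace Vale.Agent.P043.Three.Layer

open Finset

variable {β : Type} [Fintype β] {Γ : β → Type} [∀ b, AddCommGroup (Γ b)]

/-- The local part put into its block. -/
def localMap₁ [DecidableEq β] (b : β) (p : ((ℤ × ℤ) × Γ b) × ∀ b, Γ b) :
    (ℤ × ℤ) × ∀ b, Γ b :=
  (p.1.1, Function.update p.2 b p.1.2)

/-- The tile of a one-block equation. -/
noncomputable def localTile₁ (U : ∀ b, Finset (Γ b)) (b : β) (L : Finset ((ℤ × ℤ) × Γ b)) :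
    Finset ((ℤ × ℤ) × ∀ b, Γ b) := by
  classical exact (L ×ˢ Fintype.piFinset (Function.update U b {0})).image (localMap₁ b)

theorem localMap₁_injOn [DecidableEq β] (U : ∀ b, Finset (Γ b)) (b : β)
    (L : Finset ((ℤ × ℤ) × Γ b)) :
    Set.InjOn (localMap₁ (Γ := Γ) b) ↑(L ×ˢ Fintype.piFinset (Function.update U b {0})) := by
  rintro ⟨q, u⟩ hq ⟨q', u'⟩ hq' h
  simp only [coe_product, Set.mem_prod, mem_coe, Fintype.mem_piFinset] at hq hq'
  have h1 := congrArg Prod.fst h
  have h2 := congrArg Prod.snd h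
  simp only [localMap₁] at h1 h2
  have hb := congrFun h2 b
  simp only [Function.update_self] at hb
  refine Prod.ext (Prod.ext h1 hb) (funext fun b' => ?_)
  rcases eq_or_ne b' b with rfl | hne
  · have e := hq.2 b'
    have e' := hq'.2 b'
    simp only [Function.update_self, mem_singleton] at e e'
    exact e.trans e'.symm
  · simpa [hne] using congrFun h2 b'

theorem card_localTile₁ {U : ∀ b, Finset (Γ b)} {b : β} {L : Finset ((ℤ × ℤ) × Γ b)}
    (hL : L.card = (U b).card) : (localTile₁ U b L).card = (prodU U).card := by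
  classical
  rw [localTile₁, card_image_of_injOn (localMap₁_injOn U b L), card_product, hL, prodU,
    Fintype.card_piFinset, Fintype.card_piFinset, Fintype.prod_eq_mul_prod_compl b,
    Fintype.prod_eq_mul_prod_compl b]
  simp only [Function.update_self, card_singleton, one_mul]
  congr 1
  refine prod_congr rfl fun x hx => ?_
  rw [mem_compl, mem_singleton] at hx
  rw [Function.update_of_ne hx]

/-- A one-block tile tiles product columns iff the local equation holds. -/
theorem isTiling_localTile₁ {U : ∀ b, Finset (Γ b)} (b : β) (L : Finset ((ℤ × ℤ) × Γ b))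
    {a : ∀ b, ℤ × ℤ → Set (Γ b)} (ha : ∀ b, Cols (U b) (a b)) :
    IsTiling (localTile₁ U b L) (prodSet a) ↔ Tiles₁ L (a b) := by
  classical
  rw [localTile₁, isTiling_image_iff _ _ (localMap₁_injOn U b L)]
  choose dig hdig hdigu using fun (b : β) (X : ℤ × ℤ) (z : Γ b) => ha b X z
  have key : ∀ (g : ℤ × ℤ) (z : ∀ b, Γ b) (q : (ℤ × ℤ) × Γ b) (u : ∀ b, Γ b),
      ((q, u) ∈ L ×ˢ Fintype.piFinset (Function.update U b {0}) ∧
        (g, z) - localMap₁ b (q, u) ∈ prodSet a) ↔
      (q ∈ L ∧ z b - q.2 ∈ a b (g - q.1)) ∧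
        u = Function.update (fun b' => dig b' (g - q.1) (z b')) b 0 := by
    intro g z q u
    simp only [mem_product, Fintype.mem_piFinset, localMap₁, prodSet, Set.mem_ofPred_eq,
      Prod.fst_sub, Prod.snd_sub, Pi.sub_apply]
    constructor
    · rintro ⟨⟨hq, hu⟩, hA⟩
      refine ⟨⟨hq, by simpa using hA b⟩, funext fun b' => ?_⟩
      rcases eq_or_ne b' b with rfl | hne
      · simpa using hu b'
      · rw [Function.update_of_ne hne]
        exact hdigu b' _ _ _ ⟨by simpa [hne] using hu b', by simpa [hne] using hA b'⟩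
    · rintro ⟨⟨hq, hqA⟩, rfl⟩
      refine ⟨⟨hq, fun b' => ?_⟩, fun b' => ?_⟩ <;> rcases eq_or_ne b' b with rfl | hne
      · simp
      · simpa [hne] using (hdig b' _ _).1
      · simpa using hqA
      · simpa [hne] using (hdig b' _ _).2
  constructor
  · intro h g y
    obtain ⟨⟨q, u⟩, hq, huniq⟩ := h (g, Function.update 0 b y)
    have h1 := ((key g _ q u).1 hq).1
    refine ⟨q, by simpa using h1, ?_⟩
    rintro q' ⟨hq', hA'⟩
    exact congrArg Prod.fst (huniq (q', _) ((key g _ q' _).2 ⟨⟨hq', by simpa using hA'⟩, rfl⟩))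
  · rintro h ⟨g, z⟩
    obtain ⟨q, hq, huniq⟩ := h g (z b)
    refine ⟨(q, _), (key g z q _).2 ⟨hq, rfl⟩, ?_⟩
    rintro ⟨q', u'⟩ hp
    obtain ⟨h1, rfl⟩ := (key g z q' u').1 hp
    rw [huniq q' h1]

/-- The two local parts put into their blocks. -/
def localMap₂ [DecidableEq β] (b c : β) (p : ((ℤ × ℤ) × (Γ b × Γ c)) × ∀ b, Γ b) :
    (ℤ × ℤ) × ∀ b, Γ b :=
  (p.1.1, Function.update (Function.update p.2 b p.1.2.1) c p.1.2.2)

/-- The tile of a two-block equation. -/
noncomputable def localTile₂ (U : ∀ b, Finset (Γ b)) (b c : β)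
    (L : Finset ((ℤ × ℤ) × (Γ b × Γ c))) : Finset ((ℤ × ℤ) × ∀ b, Γ b) := by
  classical
  exact (L ×ˢ Fintype.piFinset (Function.update (Function.update U b {0}) c {0})).image
    (localMap₂ b c)

theorem localMap₂_injOn [DecidableEq β] (U : ∀ b, Finset (Γ b)) {b c : β} (hbc : b ≠ c)
    (L : Finset ((ℤ × ℤ) × (Γ b × Γ c))) :
    Set.InjOn (localMap₂ (Γ := Γ) b c)
      ↑(L ×ˢ Fintype.piFinset (Function.update (Function.update U b {0}) c {0})) := by
  rintro ⟨q, u⟩ hq ⟨q', u'⟩ hq' h
  simp only [coe_product, Set.mem_prod, mem_coe, Fintype.mem_piFinset] at hq hq'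
  have h1 := congrArg Prod.fst h
  have h2 := congrArg Prod.snd h
  simp only [localMap₂] at h1 h2
  have hb := congrFun h2 b
  have hc := congrFun h2 c
  simp [hbc] at hb hc
  refine Prod.ext (Prod.ext h1 (Prod.ext hb hc)) (funext fun b' => ?_)
  rcases eq_or_ne b' c with rfl | hnc
  · have e := hq.2 b'
    have e' := hq'.2 b'
    simp only [Function.update_self, mem_singleton] at e e'
    exact e.trans e'.symm
  rcases eq_or_ne b' b with rfl | hne
  · have e := hq.2 b'
    have e' := hq'.2 b'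
    simp [hnc] at e e'
    exact e.trans e'.symm
  · simpa [hne, hnc] using congrFun h2 b'

theorem card_localTile₂ {U : ∀ b, Finset (Γ b)} {b c : β} (hbc : b ≠ c)
    {L : Finset ((ℤ × ℤ) × (Γ b × Γ c))} (hL : L.card = (U b).card * (U c).card) :
    (localTile₂ U b c L).card = (prodU U).card := by
  classical
  rw [localTile₂, card_image_of_injOn (localMap₂_injOn U hbc L), card_product, hL, prodU,
    Fintype.card_piFinset, Fintype.card_piFinset]
  have hc : ∀ f : β → ℕ, ∏ x, f x = f b * f c * ∏ x ∈ ({b, c} : Finset β)ᶜ, f x := fun f => by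
    rw [← prod_mul_prod_compl {b, c} f, prod_pair hbc]
  rw [hc, hc (fun x => (U x).card)]
  simp only [Function.update_self, Function.update_of_ne hbc, card_singleton, one_mul]
  congr 1
  refine prod_congr rfl fun x hx => ?_
  simp only [mem_compl, mem_insert, mem_singleton, not_or] at hx
  rw [Function.update_of_ne hx.2, Function.update_of_ne hx.1]

/-- A two-block tile tiles product columns iff the local equation holds. -/
theorem isTiling_localTile₂ {U : ∀ b, Finset (Γ b)} {b c : β} (hbc : b ≠ c)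
    (L : Finset ((ℤ × ℤ) × (Γ b × Γ c))) {a : ∀ b, ℤ × ℤ → Set (Γ b)}
    (ha : ∀ b, Cols (U b) (a b)) :
    IsTiling (localTile₂ U b c L) (prodSet a) ↔ Tiles₂ L (a b) (a c) := by
  classical
  rw [localTile₂, isTiling_image_iff _ _ (localMap₂_injOn U hbc L)]
  choose dig hdig hdigu using fun (b : β) (X : ℤ × ℤ) (z : Γ b) => ha b X z
  have key : ∀ (g : ℤ × ℤ) (z : ∀ b, Γ b) (q : (ℤ × ℤ) × (Γ b × Γ c)) (u : ∀ b, Γ b),
      ((q, u) ∈ L ×ˢ Fintype.piFinset (Function.update (Function.update U b {0}) c {0}) ∧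
        (g, z) - localMap₂ b c (q, u) ∈ prodSet a) ↔
      (q ∈ L ∧ z b - q.2.1 ∈ a b (g - q.1) ∧ z c - q.2.2 ∈ a c (g - q.1)) ∧
        u = Function.update (Function.update (fun b' => dig b' (g - q.1) (z b')) b 0) c 0 := by
    intro g z q u
    simp only [mem_product, Fintype.mem_piFinset, localMap₂, prodSet, Set.mem_ofPred_eq,
      Prod.fst_sub, Prod.snd_sub, Pi.sub_apply]
    constructor
    · rintro ⟨⟨hq, hu⟩, hA⟩
      refine ⟨⟨hq, by simpa [hbc] using hA b, by simpa using hA c⟩, funext fun b' => ?_⟩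
      rcases eq_or_ne b' c with rfl | hnc
      · simpa using hu b'
      rcases eq_or_ne b' b with rfl | hne
      · simpa [hnc] using hu b'
      · rw [Function.update_of_ne hnc, Function.update_of_ne hne]
        exact hdigu b' _ _ _ ⟨by simpa [hne, hnc] using hu b', by simpa [hne, hnc] using hA b'⟩
    · rintro ⟨⟨hq, hqb, hqc⟩, rfl⟩
      refine ⟨⟨hq, fun b' => ?_⟩, fun b' => ?_⟩ <;> rcases eq_or_ne b' c with rfl | hnc
      · simp
      · rcases eq_or_ne b' b with rfl | hne
        · simp [hnc]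
        · simpa [hne, hnc] using (hdig b' _ _).1
      · simpa using hqc
      · rcases eq_or_ne b' b with rfl | hne
        · simpa [hnc] using hqb
        · simpa [hne, hnc] using (hdig b' _ _).2
  constructor
  · intro h g y₀ y
    obtain ⟨⟨q, u⟩, hq, huniq⟩ := h (g, Function.update (Function.update 0 b y₀) c y)
    have h1 := ((key g _ q u).1 hq).1
    simp only [Function.update_self, Function.update_of_ne hbc] at h1
    refine ⟨q, h1, fun q' hq' => ?_⟩
    refine congrArg Prod.fst (huniq (q', _) ((key g _ q' _).2 ⟨?_, rfl⟩))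
    simpa [hbc] using hq'
  · rintro h ⟨g, z⟩
    obtain ⟨q, hq, huniq⟩ := h g (z b) (z c)
    refine ⟨(q, _), (key g z q _).2 ⟨hq, rfl⟩, ?_⟩
    rintro ⟨q', u'⟩ hp
    obtain ⟨h1, rfl⟩ := (key g z q' u').1 hp
    rw [huniq q' h1]

end Vale.Agent.P043.Three.Layer
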