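import Vale.Agent.P043.Three.Pins

/-!
P043, dimension three, layers: tiles given by injective parametrisations, columns, product
columns, and the tile which forces them.
-/

namespace Vale.Agent.P043.Three.Layer

open Finset

/-- Tiling by an injective image is unique decomposition by the parameters. -/
theorem isTiling_image_iff {G P : Type*} [AddCommGroup G] [DecidableEq G] (s : Finset P)
    (f : P → G) (hf : Set.InjOn f s) (A : Set G) :
    IsTiling (s.image f) A ↔ ∀ g, ∃! p, p ∈ s ∧ g - f p ∈ A := by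
  constructor
  · intro h g
    obtain ⟨x, ⟨hx, hxA⟩, hu⟩ := h g
    obtain ⟨p, hp, rfl⟩ := mem_image.1 hx
    exact ⟨p, ⟨hp, hxA⟩, fun q hq => hf hq.1 hp (hu _ ⟨mem_image_of_mem _ hq.1, hq.2⟩)⟩
  · intro h g
    obtain ⟨p, ⟨hp, hpA⟩, hu⟩ := h g
    refine ⟨f p, ⟨mem_image_of_mem _ hp, hpA⟩, ?_⟩
    rintro x ⟨hx, hxA⟩
    obtain ⟨q, hq, rfl⟩ := mem_image.1 hx
    rw [hu q ⟨hq, hxA⟩]

/-- The column of a set over a point of the plane. -/
def col {Γ : Type*} (A : Set ((ℤ × ℤ) × Γ)) (X : ℤ × ℤ) : Set Γ := {z | (X, z) ∈ A}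

/-- A vertical tile has the size of its digit set. -/
theorem card_vert {Γ : Type*} [AddCommGroup Γ] (U : Finset Γ) : (vert U).card = U.card := by
  classical
  rw [vert]
  exact card_image_of_injective _ fun x y h => congrArg Prod.snd h

/-- Vertical tiling is tiling of every column. -/
theorem isTiling_vert_iff {Γ : Type*} [AddCommGroup Γ] (U : Finset Γ)
    (A : Set ((ℤ × ℤ) × Γ)) : IsTiling (vert U) A ↔ ∀ X, IsTiling U (col A X) := by
  classical
  rw [vert, isTiling_image_iff _ _ (fun x _ y _ h => congrArg Prod.snd h)]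
  constructor
  · intro h X z
    refine (existsUnique_congr fun u => ?_).1 (h (X, z))
    simp [col]
  · rintro h ⟨X, z⟩
    refine (existsUnique_congr fun u => ?_).1 (h X z)
    simp [col]

variable {β : Type} {Γ : β → Type} [∀ b, AddCommGroup (Γ b)]

/-- The set whose columns are products. -/
def prodSet (a : ∀ b, ℤ × ℤ → Set (Γ b)) : Set ((ℤ × ℤ) × ∀ b, Γ b) :=
  {x | ∀ b, x.2 b ∈ a b x.1}

/-- The projection of a column to one block. -/
def blockCol (A : Set ((ℤ × ℤ) × ∀ b, Γ b)) (b : β) (X : ℤ × ℤ) : Set (Γ b) :=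
  {y | ∃ z, (X, z) ∈ A ∧ z b = y}

/-- The product of the digit sets. -/
noncomputable def prodU [Fintype β] (U : ∀ b, Finset (Γ b)) : Finset (∀ b, Γ b) := by
  classical exact Fintype.piFinset U

theorem mem_prodU [Fintype β] {U : ∀ b, Finset (Γ b)} {u : ∀ b, Γ b} :
    u ∈ prodU U ↔ ∀ b, u b ∈ U b := by
  simp [prodU]

/-- A product of complements is a complement. -/
theorem isTiling_prodU [Fintype β] {U : ∀ b, Finset (Γ b)} {s : ∀ b, Set (Γ b)}
    (h : ∀ b, IsTiling (U b) (s b)) : IsTiling (prodU U) {z | ∀ b, z b ∈ s b} := by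
  intro z
  choose u hu huniq using fun b => h b (z b)
  refine ⟨u, ⟨mem_prodU.2 fun b => (hu b).1, fun b => (hu b).2⟩, ?_⟩
  rintro v ⟨hv, hvA⟩
  exact funext fun b => huniq b _ ⟨mem_prodU.1 hv b, hvA b⟩

/-- The factors of a product complement are complements. -/
theorem isTiling_factor [Fintype β] {U : ∀ b, Finset (Γ b)} {S : Set (∀ b, Γ b)}
    {s : ∀ b, Set (Γ b)} (hS : ∀ z, z ∈ S ↔ ∀ b, z b ∈ s b) (h : IsTiling (prodU U) S) (b : β) :
    IsTiling (U b) (s b) := by
  classical
  intro y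
  obtain ⟨u₀, ⟨hu₀, hu₀S⟩, -⟩ := h 0
  have hu₀' := (hS _).1 hu₀S
  obtain ⟨u, ⟨hu, huS⟩, huniq⟩ := h (Function.update 0 b y)
  have hu' := (hS _).1 huS
  refine ⟨u b, ⟨mem_prodU.1 hu b, by simpa using hu' b⟩, ?_⟩
  rintro v ⟨hv, hvs⟩
  have := huniq (Function.update u₀ b v) ⟨?_, (hS _).2 fun b' => ?_⟩
  · simpa using congrFun this b
  · refine mem_prodU.2 fun b' => ?_
    rcases eq_or_ne b' b with rfl | hne
    · simpa using hv
    · simpa [hne] using mem_prodU.1 hu₀ b'
  · rcases eq_or_ne b' b with rfl | hne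
    · simpa using hvs
    · simpa [hne] using hu₀' b'

/-- The points of the forcing tile of block `b`: digits with zero `b` part stay, others move. -/
def forceMap [DecidableEq β] [∀ b, DecidableEq (Γ b)] (b : β) (g : ∀ b, Γ b) (u : ∀ b, Γ b) :
    (ℤ × ℤ) × ∀ b, Γ b :=
  (0, if u b = 0 then u else u + g)

/-- The forcing tile of block `b`. -/
noncomputable def forceTile [Fintype β] (U : ∀ b, Finset (Γ b)) (b : β) (g : ∀ b, Γ b) :
    Finset ((ℤ × ℤ) × ∀ b, Γ b) := by
  classical exact (prodU U).image (forceMap b g)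

theorem forceMap_injective [DecidableEq β] [∀ b, DecidableEq (Γ b)] {b : β} {g : ∀ b, Γ b}
    (hg : g b = 0) : Function.Injective (forceMap b g) := by
  intro u v h
  have h2 := congrArg Prod.snd h
  simp only [forceMap] at h2
  by_cases hu : u b = 0 <;> by_cases hv : v b = 0
  · rwa [if_pos hu, if_pos hv] at h2
  · rw [if_pos hu, if_neg hv] at h2
    exact absurd (by simpa [hu, hg] using (congrFun h2 b).symm) hv
  · rw [if_neg hu, if_pos hv] at h2
    exact absurd (by simpa [hv, hg] using congrFun h2 b) hu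
  · rw [if_neg hu, if_neg hv] at h2
    exact add_right_cancel h2

theorem card_forceTile [Fintype β] (U : ∀ b, Finset (Γ b)) {b : β} {g : ∀ b, Γ b}
    (hg : g b = 0) : (forceTile U b g).card = (prodU U).card := by
  classical
  exact card_image_of_injective _ (forceMap_injective hg)

/-- Product columns satisfy the forcing equation. -/
theorem isTiling_forceTile [Fintype β] {U : ∀ b, Finset (Γ b)} {b : β} {g : ∀ b, Γ b}
    (hg : g b = 0) {a : ∀ b, ℤ × ℤ → Set (Γ b)} (ha : ∀ b, Cols (U b) (a b)) :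
    IsTiling (forceTile U b g) (prodSet a) := by
  classical
  rw [forceTile, isTiling_image_iff _ _ ((forceMap_injective hg).injOn)]
  rintro ⟨X, z⟩
  choose u hu huniq using fun b' => ha b' X (z b')
  choose v hv hvuniq using fun b' => ha b' X (z b' - g b')
  have hb : v b = u b := huniq b _ (by simpa [hg] using hv b)
  have key : ∀ w : ∀ b, Γ b, (w ∈ prodU U ∧ (X, z) - forceMap b g w ∈ prodSet a) ↔
      w = if u b = 0 then u else v := by
    intro w
    constructor
    · rintro ⟨hw, hwA⟩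
      simp only [forceMap, prodSet, Set.mem_ofPred_eq, Prod.fst_sub, Prod.snd_sub, sub_zero] at hwA
      have hwb : w b = u b := by
        refine huniq b _ ⟨mem_prodU.1 hw b, ?_⟩
        have := hwA b
        split_ifs at this <;> simpa [hg] using this
      rw [← hwb]
      split_ifs with h0
      · simp only [if_pos h0] at hwA
        exact funext fun b' => huniq b' _ ⟨mem_prodU.1 hw b', by simpa using hwA b'⟩
      · simp only [if_neg h0] at hwA
        refine funext fun b' => hvuniq b' _ ⟨mem_prodU.1 hw b', ?_⟩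
        have := hwA b'
        simp only [Pi.sub_apply, Pi.add_apply] at this
        convert this using 1
        abel
    · rintro rfl
      simp only [forceMap, prodSet, Set.mem_ofPred_eq, Prod.fst_sub, Prod.snd_sub, sub_zero]
      by_cases h0 : u b = 0
      · simp only [if_pos h0]
        exact ⟨mem_prodU.2 fun b' => (hu b').1, fun b' => by simpa using (hu b').2⟩
      · simp only [if_neg h0, hb]
        refine ⟨mem_prodU.2 fun b' => (hv b').1, fun b' => ?_⟩
        have := (hv b').2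
        simp only [Pi.sub_apply, Pi.add_apply]
        convert this using 1
        abel
  exact ⟨_, (key _).2 rfl, fun w hw => (key w).1 hw⟩

/-- The forcing equations make every column a product. -/
theorem column_product [Fintype β] [∀ b, Fintype (Γ b)] {U : ∀ b, Finset (Γ b)}
    (h0 : ∀ b, (0 : Γ b) ∈ U b) {g : β → ∀ b, Γ b} (hg : ∀ b, g b b = 0)
    (hgen : ∀ b, ∀ y : ∀ b, Γ b, y b = 0 → ∃ k : ℤ, k • g b = y)
    {A : Set ((ℤ × ℤ) × ∀ b, Γ b)} (hvert : IsTiling (vert (prodU U)) A)
    (hforce : ∀ b, IsTiling (forceTile U b (g b)) A) (X : ℤ × ℤ) (y : ∀ b, Γ b)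
    (hy : ∀ b, y b ∈ blockCol A b X) : (X, y) ∈ A := by
  classical
  have hcol := (isTiling_vert_iff _ _).1 hvert
  obtain ⟨u, ⟨hu, huA⟩, huniq⟩ := hcol X y
  -- the digit of `y` vanishes in every block
  suffices hz : ∀ b, u b = 0 by
    have : u = 0 := funext hz
    simpa [col, this] using huA
  intro b
  let M : Set (∀ b, Γ b) := {z | ∃ v, (v ∈ prodU U ∧ z - v ∈ col A X) ∧ v b = 0}
  have hM : ∀ z, z + g b ∈ M ↔ z ∈ M := by
    intro z
    have hfo := hforce b
    rw [forceTile, isTiling_image_iff _ _ ((forceMap_injective (hg b)).injOn)] at hfo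
    obtain ⟨v, ⟨hv, hvA⟩, hvu⟩ := hfo (X, z + g b)
    simp only [forceMap] at hvA
    obtain ⟨w, ⟨hw, hwA⟩, hwu⟩ := hcol X (z + g b)
    obtain ⟨w', ⟨hw', hw'A⟩, hwu'⟩ := hcol X z
    by_cases hvb : v b = 0
    · -- `z + g` is covered by a digit with zero part; so is `z`
      rw [if_pos hvb] at hvA
      have hwv : w = v := (hwu v ⟨hv, by simpa [col] using hvA⟩).symm
      refine ⟨fun _ => ?_, fun _ => ⟨w, ⟨hw, hwA⟩, hwv ▸ hvb⟩⟩
      refine ⟨w', ⟨hw', hw'A⟩, by_contra fun hne => ?_⟩
      have := hvu w' ⟨hw', by simpa [forceMap, if_neg hne, col] using hw'A⟩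
      exact hne (this ▸ hvb)
    · rw [if_neg hvb] at hvA
      have hwv : w' = v := (hwu' v ⟨hv, by simpa [col] using hvA⟩).symm
      refine ⟨fun ⟨x, hx, hxb⟩ => ?_, fun ⟨x, hx, hxb⟩ => ?_⟩
      · exact absurd (hvu x ⟨hx.1, by simpa [forceMap, if_pos hxb, col] using hx.2⟩ ▸ hxb) hvb
      · exact absurd ((hwu' x hx).trans hwv ▸ hxb) hvb
  have hMz : ∀ (k : ℤ) z, z + k • g b ∈ M ↔ z ∈ M := by
    intro k
    induction k using Int.induction_on with
    | zero => simp
    | succ n ih =>
      intro z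
      rw [add_zsmul, one_zsmul, ← add_assoc, hM, ih]
    | pred n ih =>
      intro z
      rw [← hM, sub_zsmul, one_zsmul, add_assoc, neg_add_cancel_right, ih]
  obtain ⟨s, hs, hsb⟩ := hy b
  obtain ⟨k, hk⟩ := hgen b (y - s) (by simp [hsb])
  have hyM : y ∈ M := by
    have hsM : s ∈ M := ⟨0, ⟨mem_prodU.2 h0, by simpa [col] using hs⟩, rfl⟩
    have := (hMz k s).2 hsM
    rwa [hk, add_sub_cancel] at this
  obtain ⟨v, hv, hvb⟩ := hyM
  rw [← huniq v hv]
  exact hvb

end Vale.Agent.P043.Three.Layer
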